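import Vale.Agent.P110.Golay

/-!
# Littlewood polynomials of every length: concatenation and density of Golay lengths
-/

namespace Vale.Agent.P110

open Finset ComplexConjugate

lemma norm_val_le_of_golay {g : ℕ} {a b : ℕ → ℤ}
    (h : ∀ z : ℂ, ‖z‖ = 1 → ‖val a g z‖ ^ 2 + ‖val b g z‖ ^ 2 = 2 * (g : ℝ)) (z : ℂ) (hz : ‖z‖ = 1) :
    ‖val a g z‖ ≤ Real.sqrt (2 * g) := by
  apply Real.le_sqrt_of_sq_le
  have := h z hz
  nlinarith [sq_nonneg ‖val b g z‖]

/-- Concatenation of two sign sequences. -/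
def concat (G : ℕ) (a t : ℕ → ℤ) : ℕ → ℤ := fun k => if k < G then a k else t (k - G)

lemma concat_sign {G : ℕ} {a t : ℕ → ℤ} (ha : IsSign a) (ht : IsSign t) : IsSign (concat G a t) := by
  intro k
  unfold concat
  split_ifs
  · exact ha k
  · exact ht _

lemma val_concat (G T : ℕ) (a t : ℕ → ℤ) (z : ℂ) :
    val (concat G a t) (G + T) z = val a G z + z ^ G * val t T z := by
  unfold val
  rw [Finset.sum_range_add, Finset.mul_sum]
  congr 1
  · apply Finset.sum_congr rfl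
    intro k hk
    have hk' : k < G := Finset.mem_range.mp hk
    simp [concat, hk']
  · apply Finset.sum_congr rfl
    intro j _
    have h1 : ¬ G + j < G := by omega
    have h2 : G + j - G = j := by omega
    simp only [concat, h1, if_false, h2]
    rw [pow_add]
    ring

lemma norm_val_concat_le (G T : ℕ) (a t : ℕ → ℤ) (z : ℂ) (hz : ‖z‖ = 1) :
    ‖val (concat G a t) (G + T) z‖ ≤ ‖val a G z‖ + ‖val t T z‖ := by
  rw [val_concat]
  refine (norm_add_le _ _).trans ?_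
  rw [norm_mul, norm_pow, hz, one_pow, one_mul]

/-- The classical bound at every length, obtained from dyadic Golay pairs. -/
theorem shapiro (N : ℕ) : ∃ s : ℕ → ℤ, IsSign s ∧
    ∀ z : ℂ, ‖z‖ = 1 → ‖val s N z‖ ≤ (2 + Real.sqrt 2) * Real.sqrt N := by
  induction N using Nat.strong_induction_on with
  | _ N ih =>
    rcases Nat.eq_zero_or_pos N with rfl | hN
    · exact ⟨fun _ => 1, fun _ => Or.inl rfl, fun z _ => by simp [val]⟩
    · obtain ⟨G, hG1, hG2, hGgol, hGpos⟩ : ∃ G, G ≤ N ∧ N < 2 * G ∧ Golay G ∧ 0 < G := by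
        refine ⟨2 ^ Nat.log 2 N, Nat.pow_log_le_self 2 (by omega), ?_, by simpa using golay_pow (Nat.log 2 N) 0,
          by positivity⟩
        have := Nat.lt_pow_succ_log_self (b := 2) (by norm_num) N
        rw [pow_succ] at this
        omega
      obtain ⟨T, hT⟩ : ∃ T, N = G + T := ⟨N - G, by omega⟩
      have hTN : T < N := by omega
      have hTG : T ≤ G := by omega
      obtain ⟨t, ht, htb⟩ := ih T hTN
      obtain ⟨a, b, ha, _, hab⟩ := hGgol
      refine ⟨concat G a t, concat_sign ha ht, ?_⟩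
      intro z hz
      subst hT
      refine (norm_val_concat_le G T a t z hz).trans ?_
      refine (add_le_add (norm_val_le_of_golay hab z hz) (htb z hz)).trans ?_
      set q := Real.sqrt 2 with hq
      have hq2 : q ^ 2 = 2 := Real.sq_sqrt (by norm_num)
      have hq0 : 0 ≤ q := Real.sqrt_nonneg 2
      set x := Real.sqrt G with hx
      set y := Real.sqrt T with hy
      have hx2 : x ^ 2 = G := Real.sq_sqrt (by positivity)
      have hy2 : y ^ 2 = T := Real.sq_sqrt (by positivity)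
      have hx0 : 0 ≤ x := Real.sqrt_nonneg _
      have hy0 : 0 ≤ y := Real.sqrt_nonneg _
      have hyx : y ≤ x := Real.sqrt_le_sqrt (by exact_mod_cast hTG)
      have e1 : Real.sqrt (2 * (G : ℝ)) = q * x := by
        rw [hq, hx, Real.sqrt_mul (by norm_num)]
      rw [e1]
      have hcast : ((G + T : ℕ) : ℝ) = x ^ 2 + y ^ 2 := by
        push_cast
        rw [hx2, hy2]
      rw [hcast]
      have key : q * x + (2 + q) * y ≤ (2 + q) * Real.sqrt (x ^ 2 + y ^ 2) := by
        have hC : 0 ≤ 2 + q := by positivity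
        have h2 : (q * x + (2 + q) * y) ^ 2 ≤ ((2 + q) * Real.sqrt (x ^ 2 + y ^ 2)) ^ 2 := by
          rw [mul_pow, Real.sq_sqrt (by positivity)]
          have h3 : x * y ≤ x * x := mul_le_mul_of_nonneg_left hyx hx0
          have h4 : (4 * q + 4) * (x * y) ≤ (4 * q + 4) * (x * x) :=
            mul_le_mul_of_nonneg_left h3 (by positivity)
          nlinarith [h4, hq2]
        exact (le_abs_self _).trans (abs_le_of_sq_le_sq h2 (by positivity))
      exact key

/-- A mantissa `5 ^ k / 2 ^ c` or its inverse just above one. -/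
lemma exists_mantissa (η : ℝ) (hη : 0 < η) : ∃ k c : ℕ, 0 < k ∧ ∃ y : ℝ, 1 < y ∧ y ≤ 1 + η ∧
    (y = (5 : ℝ) ^ k / 2 ^ c ∨ y = (2 : ℝ) ^ c / 5 ^ k) := by
  obtain ⟨K, hK⟩ := exists_nat_gt (max 2 (2 / η))
  have hK2 : (2 : ℝ) < K := lt_of_le_of_lt (le_max_left _ _) hK
  have hKη : 2 / η < K := lt_of_le_of_lt (le_max_right _ _) hK
  have hKpos : (0 : ℝ) < K := by linarith
  have hKη' : 2 / (K : ℝ) < η := by
    rw [div_lt_iff₀ hKpos]
    rw [div_lt_iff₀ hη] at hKη
    linarith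
  let e : ℕ → ℕ := fun b => Nat.log 2 (5 ^ b)
  let μ : ℕ → ℝ := fun b => (5 : ℝ) ^ b / 2 ^ e b
  have hμ1 : ∀ b, 1 ≤ μ b := by
    intro b
    have h1 : 2 ^ e b ≤ 5 ^ b := Nat.pow_log_le_self 2 (by positivity)
    have h2 : ((2 : ℝ) ^ e b) ≤ 5 ^ b := by exact_mod_cast h1
    rw [show μ b = (5 : ℝ) ^ b / 2 ^ e b from rfl, one_le_div (by positivity)]
    exact h2
  have hμ2 : ∀ b, μ b < 2 := by
    intro b
    have h1 : 5 ^ b < 2 ^ (e b + 1) := Nat.lt_pow_succ_log_self (by norm_num) _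
    have h2 : ((5 : ℝ) ^ b) < 2 ^ (e b + 1) := by exact_mod_cast h1
    rw [show μ b = (5 : ℝ) ^ b / 2 ^ e b from rfl, div_lt_iff₀ (by positivity)]
    rw [pow_succ] at h2
    linarith
  have hmaps : ∀ b ∈ range (K + 1), ⌊(K : ℝ) * (μ b - 1)⌋₊ ∈ range K := by
    intro b _
    rw [Finset.mem_range, Nat.floor_lt (mul_nonneg hKpos.le (by linarith [hμ1 b]))]
    have := hμ2 b
    nlinarith
  obtain ⟨b1, _, b2, _, hne, hfl⟩ := Finset.exists_ne_map_eq_of_card_lt_of_maps_to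
    (by simp : (range K).card < (range (K + 1)).card) hmaps
  have hclose : ∀ u v : ℕ, ⌊(K : ℝ) * (μ u - 1)⌋₊ = ⌊(K : ℝ) * (μ v - 1)⌋₊ →
      |μ u - μ v| < 1 / K := by
    intro u v huv
    have hu0 : 0 ≤ (K : ℝ) * (μ u - 1) := mul_nonneg hKpos.le (by linarith [hμ1 u])
    have hv0 : 0 ≤ (K : ℝ) * (μ v - 1) := mul_nonneg hKpos.le (by linarith [hμ1 v])
    have h1 := Nat.floor_le hu0
    have h2 := Nat.lt_floor_add_one ((K : ℝ) * (μ u - 1))
    have h3 := Nat.floor_le hv0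
    have h4 := Nat.lt_floor_add_one ((K : ℝ) * (μ v - 1))
    rw [huv] at h1 h2
    rw [lt_div_iff₀ hKpos]
    have : |μ u - μ v| * K = |(K : ℝ) * (μ u - 1) - (K : ℝ) * (μ v - 1)| := by
      rw [← mul_sub_left_distrib, abs_mul, abs_of_pos hKpos]
      ring_nf
    rw [this, abs_lt]
    constructor <;> linarith
  -- order the two indices
  obtain ⟨u, v, huv, hcl⟩ : ∃ u v : ℕ, u < v ∧ |μ v - μ u| < 1 / K := by
    rcases lt_or_gt_of_ne hne with h | h
    · exact ⟨b1, b2, h, hclose _ _ hfl.symm⟩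
    · exact ⟨b2, b1, h, hclose _ _ hfl⟩
  have hev : e u ≤ e v := Nat.log_mono_right (Nat.pow_le_pow_right (by norm_num) huv.le)
  refine ⟨v - u, e v - e u, by omega, ?_⟩
  set m : ℝ := (5 : ℝ) ^ (v - u) / 2 ^ (e v - e u) with hm
  have hmpos : 0 < m := by positivity
  have hmμ : m * μ u = μ v := by
    have h5 : (5 : ℝ) ^ v = 5 ^ (v - u) * 5 ^ u := by
      rw [← pow_add, Nat.sub_add_cancel huv.le]
    have h2 : (2 : ℝ) ^ e v = 2 ^ (e v - e u) * 2 ^ e u := by
      rw [← pow_add, Nat.sub_add_cancel hev]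
    simp only [hm, μ]
    rw [h5, h2]
    field_simp
  have hm1 : |m - 1| < 1 / K := by
    have h1 : m - 1 = (μ v - μ u) / μ u := by
      rw [← hmμ]
      have := hμ1 u
      field_simp
    rw [h1, abs_div, abs_of_pos (by linarith [hμ1 u] : 0 < μ u)]
    have h2 := hμ1 u
    refine lt_of_le_of_lt (div_le_self (abs_nonneg _) h2) hcl
  have hm2 : m ≠ 1 := by
    intro h
    have h1 : (5 : ℝ) ^ (v - u) = 2 ^ (e v - e u) := by
      rw [hm, div_eq_one_iff_eq (by positivity)] at h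
      exact h
    have h2 : 5 ^ (v - u) = 2 ^ (e v - e u) := by exact_mod_cast h1
    have h3 : Odd (5 ^ (v - u)) := Odd.pow (by decide)
    rw [h2] at h3
    have h4 : e v - e u = 0 := by
      by_contra h0
      have : Even (2 ^ (e v - e u)) := (Nat.even_pow.mpr ⟨by decide, h0⟩)
      exact (Nat.not_even_iff_odd.mpr h3) this
    rw [h4, pow_zero] at h2
    have h5 : 5 ^ 1 ≤ 5 ^ (v - u) := Nat.pow_le_pow_right (by norm_num) (by omega)
    omega
  obtain ⟨hlo, hhi⟩ := abs_lt.mp hm1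
  have hinvK : 1 / (K : ℝ) < 1 / 2 := by
    rw [div_lt_div_iff₀ hKpos (by norm_num)]
    linarith
  have h1K : 1 / (K : ℝ) ≤ 2 / K := by
    apply div_le_div_of_nonneg_right (by norm_num) hKpos.le
  rcases lt_or_gt_of_ne hm2 with hlt | hgt
  · refine ⟨1 / m, ?_, ?_, Or.inr ?_⟩
    · rw [lt_div_iff₀ hmpos]; linarith
    · have hm12 : 1 / 2 < m := by linarith
      rw [div_le_iff₀ hmpos]
      have h3 : (1 - m) ≤ 2 / K - (1 - m) := by
        have : 2 / (K : ℝ) = 2 * (1 / K) := by ring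
        rw [this]
        linarith
      nlinarith
    · rw [hm]
      field_simp
  · refine ⟨m, hgt, ?_, Or.inl rfl⟩
    linarith

/-- Golay lengths `2 ^ a * 10 ^ b` are dense in ratio. -/
theorem exists_golay_near (δ : ℝ) (hδ : 0 < δ) : ∃ N₀ : ℕ, ∀ N ≥ N₀, ∃ a b : ℕ,
    2 ^ a * 10 ^ b ≤ N ∧ (N : ℝ) - ((2 ^ a * 10 ^ b : ℕ) : ℝ) ≤ δ * N := by
  obtain ⟨k, c, hk, y, hy1, hy2, hy⟩ := exists_mantissa δ hδ
  obtain ⟨J, hJ⟩ := pow_unbounded_of_one_lt (2 : ℝ) hy1
  refine ⟨2 ^ ((J + 1) * (c + k) + 1), ?_⟩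
  intro N hN
  have hNpos : 0 < N := lt_of_lt_of_le (by positivity) hN
  have hNR : (0 : ℝ) < N := by exact_mod_cast hNpos
  set p := Nat.log 2 N with hp
  have hpge : (J + 1) * (c + k) + 1 ≤ p := by
    rw [hp]
    exact (Nat.le_log_iff_pow_le (by norm_num) (by omega)).mpr hN
  have h2p : (2 : ℝ) ^ p ≤ N := by
    have : 2 ^ p ≤ N := Nat.pow_log_le_self 2 (by omega)
    exact_mod_cast this
  have h2p' : (N : ℝ) < 2 ^ (p + 1) := by
    have : N < 2 ^ (p + 1) := Nat.lt_pow_succ_log_self (by norm_num) N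
    exact_mod_cast this
  have h2pos : (0 : ℝ) < 2 ^ p := by positivity
  -- the final estimate from `G ≤ N ≤ G y`
  have finish : ∀ G : ℕ, (G : ℝ) ≤ N → (N : ℝ) ≤ G * y → (N : ℝ) - (G : ℝ) ≤ δ * N := by
    intro G h1 h2
    have hG0 : (0 : ℝ) ≤ G := Nat.cast_nonneg G
    nlinarith
  rcases hy with hy' | hy'
  · -- `y = 5 ^ k / 2 ^ c`
    have hx1 : (1 : ℝ) ≤ N / 2 ^ p := by rw [one_le_div h2pos]; exact h2p
    have hx2 : (N : ℝ) / 2 ^ p < 2 := by
      rw [div_lt_iff₀ h2pos]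
      rw [pow_succ] at h2p'
      linarith
    obtain ⟨n, hn1, hn2⟩ := exists_nat_pow_near hx1 hy1
    have hnJ : n < J := (pow_lt_pow_iff_right₀ hy1).mp (lt_trans (lt_of_le_of_lt hn1 hx2) hJ)
    have hbound : c * n + k * n ≤ p := by
      have : (c + k) * n ≤ (J + 1) * (c + k) := by
        rw [Nat.mul_comm (c + k) n]
        exact Nat.mul_le_mul_right _ (by omega)
      nlinarith
    obtain ⟨a, ha⟩ : ∃ a, p = a + k * n + c * n := ⟨p - (c * n + k * n), by omega⟩
    refine ⟨a, k * n, ?_, ?_⟩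
    all_goals
      have hGval : ((2 ^ a * 10 ^ (k * n) : ℕ) : ℝ) = 2 ^ p * y ^ n := by
        rw [hy', div_pow, ← pow_mul, ← pow_mul, ha, pow_add, pow_add]
        push_cast
        rw [show (10 : ℝ) = 2 * 5 by norm_num, mul_pow]
        field_simp
      have hGN : ((2 ^ a * 10 ^ (k * n) : ℕ) : ℝ) ≤ N := by
        rw [hGval]
        rw [le_div_iff₀ h2pos] at hn1
        linarith
    · exact_mod_cast hGN
    · apply finish _ hGN
      rw [hGval]
      rw [div_lt_iff₀ h2pos, pow_succ] at hn2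
      nlinarith
  · -- `y = 2 ^ c / 5 ^ k`
    have hP : (0 : ℝ) < 2 ^ (p + 1) := by positivity
    have hx1 : (1 : ℝ) ≤ 2 ^ (p + 1) / N := by rw [one_le_div hNR]; exact h2p'.le
    have hx2 : (2 : ℝ) ^ (p + 1) / N ≤ 2 := by
      rw [div_le_iff₀ hNR, pow_succ]
      linarith
    obtain ⟨n, hn1, hn2⟩ := exists_nat_pow_near hx1 hy1
    have hnJ : n < J := (pow_lt_pow_iff_right₀ hy1).mp (lt_of_le_of_lt (hn1.trans hx2) hJ)
    have hbound : c * (n + 1) + k * (n + 1) ≤ p + 1 := by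
      have : (c + k) * (n + 1) ≤ (J + 1) * (c + k) := by
        rw [Nat.mul_comm (c + k) (n + 1)]
        exact Nat.mul_le_mul_right _ (by omega)
      nlinarith
    obtain ⟨a, ha⟩ : ∃ a, p + 1 = a + k * (n + 1) + c * (n + 1) :=
      ⟨p + 1 - (c * (n + 1) + k * (n + 1)), by omega⟩
    refine ⟨a, k * (n + 1), ?_, ?_⟩
    all_goals
      have hGval : ((2 ^ a * 10 ^ (k * (n + 1)) : ℕ) : ℝ) * y ^ (n + 1) = 2 ^ (p + 1) := by
        rw [hy', div_pow, ← pow_mul, ← pow_mul, ha, pow_add, pow_add]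
        push_cast
        rw [show (10 : ℝ) = 2 * 5 by norm_num, mul_pow]
        field_simp
      have hypos : (0 : ℝ) < y ^ (n + 1) := by positivity
      have hGN : ((2 ^ a * 10 ^ (k * (n + 1)) : ℕ) : ℝ) ≤ N := by
        rw [div_lt_iff₀ hNR] at hn2
        have : ((2 ^ a * 10 ^ (k * (n + 1)) : ℕ) : ℝ) * y ^ (n + 1) ≤ N * y ^ (n + 1) := by
          rw [hGval]; linarith
        exact le_of_mul_le_mul_right this hypos
    · exact_mod_cast hGN
    · apply finish _ hGN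
      rw [le_div_iff₀ hNR] at hn1
      have hynpos : (0 : ℝ) < y ^ n := by positivity
      have h5 : (N : ℝ) * y ^ n ≤ ((2 ^ a * 10 ^ (k * (n + 1)) : ℕ) : ℝ) * y * y ^ n := by
        calc (N : ℝ) * y ^ n = y ^ n * N := by ring
          _ ≤ 2 ^ (p + 1) := hn1
          _ = ((2 ^ a * 10 ^ (k * (n + 1)) : ℕ) : ℝ) * y * y ^ n := by
              rw [← hGval, pow_succ]; ring
      exact le_of_mul_le_mul_right h5 hynpos

end Vale.Agent.P110
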