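import Mathlib

/-!
# Golay complementary pairs: Turyn's product, and lengths `2 ^ a * 10 ^ b`
-/

namespace Vale.Agent.P110

open Finset ComplexConjugate

/-- Value at `z` of the polynomial of length `N` with coefficient sequence `s`. -/
noncomputable def val (s : ℕ → ℤ) (N : ℕ) (z : ℂ) : ℂ := ∑ k ∈ range N, (s k : ℂ) * z ^ k

/-- All entries are signs. -/
def IsSign (s : ℕ → ℤ) : Prop := ∀ k, s k = 1 ∨ s k = -1

/-- A pair of sign sequences of length `g` with `|A|^2 + |B|^2 = 2 g` on the unit circle. -/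
def Golay (g : ℕ) : Prop :=
  ∃ a b : ℕ → ℤ, IsSign a ∧ IsSign b ∧
    ∀ z : ℂ, ‖z‖ = 1 → ‖val a g z‖ ^ 2 + ‖val b g z‖ ^ 2 = 2 * (g : ℝ)

lemma sum_range_mul (f : ℕ → ℂ) (g h : ℕ) :
    ∑ n ∈ range (g * h), f n = ∑ i ∈ range g, ∑ j ∈ range h, f (i * h + j) := by
  induction g with
  | zero => simp
  | succ g ih =>
    rw [Nat.succ_mul, Finset.sum_range_add, ih, Finset.sum_range_succ]

lemma sq_norm_eq (x : ℂ) : ((‖x‖ ^ 2 : ℝ) : ℂ) = x * conj x := by
  rw [Complex.mul_conj']
  push_cast
  rfl

lemma turyn_identity (α β U V ρ : ℂ) (hρ : ‖ρ‖ = 1) :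
    ‖α * U + ρ * conj β * V‖ ^ 2 + ‖β * U - ρ * conj α * V‖ ^ 2
      = (‖α‖ ^ 2 + ‖β‖ ^ 2) * (‖U‖ ^ 2 + ‖V‖ ^ 2) := by
  have h1 : ρ * conj ρ = 1 := by
    rw [Complex.mul_conj', hρ]; simp
  apply Complex.ofReal_injective
  push_cast
  have e : ∀ x : ℂ, ((‖x‖ : ℂ)) ^ 2 = x * conj x := fun x => (Complex.mul_conj' x).symm
  simp only [e, map_add, map_sub, map_mul, Complex.conj_conj]
  linear_combination (β * conj β + α * conj α) * V * conj V * h1

lemma parallelogram (C D : ℂ) :
    ‖(C + D) / 2‖ ^ 2 + ‖(C - D) / 2‖ ^ 2 = (‖C‖ ^ 2 + ‖D‖ ^ 2) / 2 := by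
  apply Complex.ofReal_injective
  push_cast
  have e : ∀ x : ℂ, ((‖x‖ : ℂ)) ^ 2 = x * conj x := fun x => (Complex.mul_conj' x).symm
  simp only [e, map_add, map_sub, map_div₀, Complex.conj_ofNat]
  ring

lemma reflect_val (b : ℕ → ℤ) (g : ℕ) (w : ℂ) (hw : ‖w‖ = 1) :
    ∑ i ∈ range g, (b (g - 1 - i) : ℂ) * w ^ i = w ^ (g - 1) * conj (val b g w) := by
  have h1 : w * conj w = 1 := by
    rw [Complex.mul_conj', hw]; simp
  rw [val, map_sum, Finset.mul_sum]
  have h2 : ∀ i ∈ range g, w ^ (g - 1) * conj ((b i : ℂ) * w ^ i) = (b i : ℂ) * w ^ (g - 1 - i) := by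
    intro i hi
    have hi' : i ≤ g - 1 := by
      have := Finset.mem_range.mp hi
      omega
    have h3 : w ^ (g - 1) = w ^ (g - 1 - i) * w ^ i := by
      rw [← pow_add, Nat.sub_add_cancel hi']
    rw [map_mul, map_pow, map_intCast, h3]
    calc w ^ (g - 1 - i) * w ^ i * ((b i : ℂ) * conj w ^ i)
        = (b i : ℂ) * w ^ (g - 1 - i) * (w * conj w) ^ i := by rw [mul_pow]; ring
      _ = (b i : ℂ) * w ^ (g - 1 - i) := by rw [h1]; simp
  rw [Finset.sum_congr rfl h2,
    ← Finset.sum_range_reflect (fun i => (b i : ℂ) * w ^ (g - 1 - i)) g]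
  apply Finset.sum_congr rfl
  intro i hi
  have hi' : i < g := Finset.mem_range.mp hi
  have : g - 1 - (g - 1 - i) = i := by omega
  simp only [this]

/-- Turyn's product: Golay pairs of lengths `g` and `h` give one of length `g * h`. -/
theorem Golay.mul {g h : ℕ} (hh : 0 < h) (G : Golay g) (H : Golay h) : Golay (g * h) := by
  obtain ⟨a, b, ha, hb, hab⟩ := G
  obtain ⟨c, d, hc, hd, hcd⟩ := H
  classical
  let e : ℕ → ℤ := fun n =>
    if c (n % h) = d (n % h) then a (n / h) * c (n % h) else b (g - 1 - n / h) * c (n % h)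
  let f : ℕ → ℤ := fun n =>
    if c (n % h) = d (n % h) then b (n / h) * c (n % h) else -a (g - 1 - n / h) * c (n % h)
  have sgn_mul : ∀ x y : ℤ, (x = 1 ∨ x = -1) → (y = 1 ∨ y = -1) → (x * y = 1 ∨ x * y = -1) := by
    intro x y hx hy
    rcases hx with rfl | rfl <;> rcases hy with rfl | rfl <;> simp
  refine ⟨e, f, ?_, ?_, ?_⟩
  · intro n
    by_cases hn : c (n % h) = d (n % h)
    · simp only [e, if_pos hn]; exact sgn_mul _ _ (ha _) (hc _)
    · simp only [e, if_neg hn]; exact sgn_mul _ _ (hb _) (hc _)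
  · intro n
    by_cases hn : c (n % h) = d (n % h)
    · simp only [f, if_pos hn]; exact sgn_mul _ _ (hb _) (hc _)
    · simp only [f, if_neg hn]
      have : -a (g - 1 - n / h) = 1 ∨ -a (g - 1 - n / h) = -1 := by
        rcases ha (g - 1 - n / h) with h1 | h1 <;> simp [h1]
      exact sgn_mul _ _ this (hc _)
  · intro z hz
    have hdiv : ∀ i j, j < h → (i * h + j) / h = i := by
      intro i j hj
      rw [Nat.add_comm, Nat.add_mul_div_right _ _ hh, Nat.div_eq_of_lt hj, zero_add]
    have hmod : ∀ i j, j < h → (i * h + j) % h = j := by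
      intro i j hj
      rw [Nat.add_comm, Nat.add_mul_mod_self_right, Nat.mod_eq_of_lt hj]
    set w : ℂ := z ^ h with hwdef
    have hw : ‖w‖ = 1 := by rw [hwdef, norm_pow, hz, one_pow]
    set C : ℂ := val c h z with hC
    set D : ℂ := val d h z with hD
    set U : ℂ := (C + D) / 2 with hU
    set V : ℂ := (C - D) / 2 with hV
    -- coefficientwise descriptions of `U` and `V`
    have hUsum : U = ∑ j ∈ range h, (if c j = d j then (c j : ℂ) else 0) * z ^ j := by
      rw [hU, hC, hD, val, val, ← Finset.sum_add_distrib, Finset.sum_div]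
      apply Finset.sum_congr rfl
      intro j _
      rcases hc j with h1 | h1 <;> rcases hd j with h2 | h2 <;> simp [h1, h2] <;> try ring
    have hVsum : V = ∑ j ∈ range h, (if c j = d j then 0 else (c j : ℂ)) * z ^ j := by
      rw [hV, hC, hD, val, val, ← Finset.sum_sub_distrib, Finset.sum_div]
      apply Finset.sum_congr rfl
      intro j _
      rcases hc j with h1 | h1 <;> rcases hd j with h2 | h2 <;> simp [h1, h2] <;> try ring
    have hE : val e (g * h) z = val a g w * U + w ^ (g - 1) * conj (val b g w) * V := by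
      rw [← reflect_val b g w hw, hUsum, hVsum, val, val, sum_range_mul,
        Finset.sum_mul_sum, Finset.sum_mul_sum, ← Finset.sum_add_distrib]
      apply Finset.sum_congr rfl
      intro i _
      rw [← Finset.sum_add_distrib]
      apply Finset.sum_congr rfl
      intro j hj
      have hj' : j < h := Finset.mem_range.mp hj
      have hp : z ^ (i * h + j) = w ^ i * z ^ j := by
        rw [pow_add, hwdef, ← pow_mul, Nat.mul_comm h i]
      simp only [e, hdiv i j hj', hmod i j hj', hp]
      by_cases h3 : c j = d j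
      · simp only [if_pos h3]; push_cast; ring
      · simp only [if_neg h3]; push_cast; ring
    have hF : val f (g * h) z = val b g w * U - w ^ (g - 1) * conj (val a g w) * V := by
      rw [← reflect_val a g w hw, hUsum, hVsum, val, val, sum_range_mul,
        Finset.sum_mul_sum, Finset.sum_mul_sum, ← Finset.sum_sub_distrib]
      apply Finset.sum_congr rfl
      intro i _
      rw [← Finset.sum_sub_distrib]
      apply Finset.sum_congr rfl
      intro j hj
      have hj' : j < h := Finset.mem_range.mp hj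
      have hp : z ^ (i * h + j) = w ^ i * z ^ j := by
        rw [pow_add, hwdef, ← pow_mul, Nat.mul_comm h i]
      simp only [f, hdiv i j hj', hmod i j hj', hp]
      by_cases h3 : c j = d j
      · simp only [if_pos h3]; push_cast; ring
      · simp only [if_neg h3]; push_cast; ring
    have hρ : ‖w ^ (g - 1)‖ = 1 := by rw [norm_pow, hw, one_pow]
    rw [hE, hF, turyn_identity _ _ _ _ _ hρ, hab w hw, hU, hV, parallelogram, hcd z hz]
    push_cast
    ring

theorem golay_one : Golay 1 := by
  refine ⟨fun _ => 1, fun _ => 1, fun _ => Or.inl rfl, fun _ => Or.inl rfl, ?_⟩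
  intro z _
  simp [val]
  norm_num

theorem golay_two : Golay 2 := by
  refine ⟨fun _ => 1, fun k => if k = 0 then 1 else -1, fun _ => Or.inl rfl, ?_, ?_⟩
  · intro k
    by_cases hk : k = 0
    · left; simp [hk]
    · right; simp [hk]
  · intro z hz
    have h1 : z * conj z = 1 := by
      rw [Complex.mul_conj', hz]; simp
    apply Complex.ofReal_injective
    push_cast
    have e : ∀ x : ℂ, ((‖x‖ : ℂ)) ^ 2 = x * conj x := fun x => (Complex.mul_conj' x).symm
    simp only [e, val, Finset.sum_range_succ, Finset.sum_range_zero]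
    simp
    linear_combination 2 * h1

theorem golay_ten : Golay 10 := by
  refine ⟨fun k => if k = 2 ∨ k = 4 ∨ k = 6 ∨ k = 7 then -1 else 1,
    fun k => if k = 2 ∨ k = 8 ∨ k = 9 then -1 else 1, ?_, ?_, ?_⟩
  · intro k
    by_cases hk : k = 2 ∨ k = 4 ∨ k = 6 ∨ k = 7
    · right; simp only [if_pos hk]
    · left; simp only [if_neg hk]
  · intro k
    by_cases hk : k = 2 ∨ k = 8 ∨ k = 9
    · right; simp only [if_pos hk]
    · left; simp only [if_neg hk]
  · intro z hz
    have hz0 : z ≠ 0 := by
      intro h0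
      rw [h0] at hz
      simp at hz
    have hc : conj z = z⁻¹ := (Complex.inv_eq_conj hz).symm
    apply Complex.ofReal_injective
    push_cast
    have e : ∀ x : ℂ, ((‖x‖ : ℂ)) ^ 2 = x * conj x := fun x => (Complex.mul_conj' x).symm
    simp only [e, val, Finset.sum_range_succ, Finset.sum_range_zero]
    norm_num
    simp only [hc]
    field_simp
    ring

theorem golay_pow (a b : ℕ) : Golay (2 ^ a * 10 ^ b) := by
  induction a with
  | succ a ih =>
    have := Golay.mul (by norm_num : 0 < 2) ih golay_two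
    convert this using 1
    ring
  | zero =>
    induction b with
    | zero => simpa using golay_one
    | succ b ih =>
      have := Golay.mul (by norm_num : 0 < 10) ih golay_ten
      convert this using 1
      ring

end Vale.Agent.P110
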