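import Mathlib

namespace Vale.Agent.P110

open Finset
open scoped ComplexConjugate

lemma root_sum {M : ℕ} (hM : 0 < M) {ζ : ℂ} (hζ : IsPrimitiveRoot ζ M) {t t' : ℕ}
    (ht : t < M) (ht' : t' < M) :
    ∑ s ∈ range M, ζ ^ (s * t) * conj (ζ ^ (s * t')) = if t = t' then (M : ℂ) else 0 := by
  have hn : ‖ζ‖ = 1 := Complex.norm_eq_one_of_pow_eq_one hζ.pow_eq_one hM.ne'
  have hnp : ∀ k : ℕ, ζ ^ k * conj (ζ ^ k) = 1 := by
    intro k
    rw [Complex.mul_conj, Complex.normSq_eq_norm_sq, norm_pow, hn]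
    simp
  have hξ : ∀ s : ℕ, ζ ^ (s * t) * conj (ζ ^ (s * t')) = (ζ ^ t * conj (ζ ^ t')) ^ s := by
    intro s
    rw [mul_pow, pow_mul' ζ s t, pow_mul' ζ s t', map_pow]
  simp_rw [hξ]
  split_ifs with h
  · subst h
    rw [hnp]
    simp
  · have hne : ζ ^ t * conj (ζ ^ t') ≠ 1 := by
      intro h1
      apply h
      apply hζ.pow_inj ht ht'
      have h2 := hnp t'
      calc ζ ^ t = ζ ^ t * (ζ ^ t' * conj (ζ ^ t')) := by rw [h2, mul_one]
        _ = (ζ ^ t * conj (ζ ^ t')) * ζ ^ t' := by ring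
        _ = ζ ^ t' := by rw [h1, one_mul]
    rw [geom_sum_eq hne]
    have h3 : (ζ ^ t * conj (ζ ^ t')) ^ M = 1 := by
      rw [mul_pow, ← map_pow, ← pow_mul, ← pow_mul, mul_comm t, mul_comm t', pow_mul, pow_mul,
        hζ.pow_eq_one]
      simp
    rw [h3]
    simp

lemma parseval {M : ℕ} (hM : 0 < M) {ζ : ℂ} (hζ : IsPrimitiveRoot ζ M) {ι : Type*}
    (I : Finset ι) (τ : ι → ℕ) (hτ : ∀ i ∈ I, τ i < M)
    (hinj : ∀ i ∈ I, ∀ j ∈ I, τ i = τ j → i = j) (c : ι → ℝ) :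
    ∑ s ∈ range M, ‖∑ i ∈ I, (c i : ℂ) * ζ ^ (s * τ i)‖ ^ 2 = M * ∑ i ∈ I, (c i) ^ 2 := by
  classical
  apply Complex.ofReal_injective
  push_cast
  have h1 : ∀ s ∈ range M, ((‖∑ i ∈ I, (c i : ℂ) * ζ ^ (s * τ i)‖ : ℂ)) ^ 2
      = ∑ i ∈ I, ∑ j ∈ I, ((c i : ℂ) * c j) * (ζ ^ (s * τ i) * conj (ζ ^ (s * τ j))) := by
    intro s _
    rw [← Complex.mul_conj', map_sum, Finset.sum_mul_sum]
    apply sum_congr rfl
    intro i _
    apply sum_congr rfl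
    intro j _
    rw [map_mul, Complex.conj_ofReal]
    ring
  rw [Finset.sum_congr rfl h1, Finset.sum_comm]
  have h2 : ∀ i ∈ I, ∑ s ∈ range M, ∑ j ∈ I,
      ((c i : ℂ) * c j) * (ζ ^ (s * τ i) * conj (ζ ^ (s * τ j))) = (M : ℂ) * (c i : ℂ) ^ 2 := by
    intro i hi
    rw [Finset.sum_comm]
    have h3 : ∀ j ∈ I, ∑ s ∈ range M,
        ((c i : ℂ) * c j) * (ζ ^ (s * τ i) * conj (ζ ^ (s * τ j)))
        = if j = i then (M : ℂ) * (c i : ℂ) ^ 2 else 0 := by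
      intro j hj
      rw [← Finset.mul_sum, root_sum hM hζ (hτ i hi) (hτ j hj)]
      by_cases hji : j = i
      · subst hji
        simp
        ring
      · have : τ i ≠ τ j := fun h => hji (hinj i hi j hj h).symm
        simp [this, hji]
    rw [Finset.sum_congr rfl h3, Finset.sum_ite_eq' I i]
    simp [hi]
  rw [Finset.sum_congr rfl h2, Finset.mul_sum]

end Vale.Agent.P110
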