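import Vale.Agent.P110.Parseval
import Vale.Agent.P033.Runs

/-!
# P110: long monochromatic progressions obstruct flatness of Littlewood polynomials
-/

namespace Vale.Agent.P110

open Finset

/-- Slowly varying integer sequences with a plateau have large energy. -/
lemma seq_lip (g : ℕ → ℤ) (hg : ∀ i, |g (i + 1) - g i| ≤ 2) (i k : ℕ) :
    |g (i + k) - g i| ≤ 2 * k := by
  induction k with
  | zero => simp
  | succ k ih =>
    have h1 := hg (i + k)
    have h3 := abs_sub_le (g (i + k + 1)) (g (i + k)) (g i)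
    rw [← add_assoc]
    push_cast
    linarith

theorem seq_plateau (g : ℕ → ℤ) (hg : ∀ i, |g (i + 1) - g i| ≤ 2) (K W r : ℕ)
    (hr : W = 2 * r + 1 ∨ W = 2 * r + 2) (hW : ∀ i ≤ K, (W : ℤ) ≤ |g (r + i)|) :
    3 * (K : ℤ) * W ^ 2 + W * (W ^ 2 + 2) ≤ 3 * ∑ i ∈ range (r + (K + 1) + r), g i ^ 2 := by
  rw [Finset.sum_range_add, Finset.sum_range_add]
  have hWr : (2 * (r : ℤ) + 1) ≤ W := by
    rcases hr with hr | hr <;> subst hr <;> push_cast <;> linarith
  have hleft : ∑ i ∈ range r, ((W : ℤ) - 2 * ((r : ℤ) - i)) ^ 2 ≤ ∑ i ∈ range r, g i ^ 2 := by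
    apply sum_le_sum
    intro i hi
    have hi' := mem_range.mp hi
    have h2 := hW 0 (Nat.zero_le _)
    have h3 := seq_lip g hg i (r - i)
    have h4 : i + (r - i) = r := by omega
    rw [h4] at h3
    have h5 : (((r - i : ℕ) : ℤ)) = (r : ℤ) - i := by omega
    rw [h5] at h3
    simp only [add_zero] at h2
    have h6 : |g r| ≤ |g i| + |g r - g i| := by
      have := abs_add_le (g i) (g r - g i)
      simpa using this
    have h7 : (0 : ℤ) ≤ (W : ℤ) - 2 * ((r : ℤ) - i) := by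
      have : (i : ℤ) ≥ 0 := by positivity
      linarith
    have h8 : (W : ℤ) - 2 * ((r : ℤ) - i) ≤ |g i| := by linarith
    calc ((W : ℤ) - 2 * ((r : ℤ) - i)) ^ 2 ≤ |g i| ^ 2 := by gcongr
      _ = g i ^ 2 := sq_abs _
  have hmid : ((K : ℤ) + 1) * (W : ℤ) ^ 2 ≤ ∑ i ∈ range (K + 1), g (r + i) ^ 2 := by
    have h2 : ∀ i ∈ range (K + 1), (W : ℤ) ^ 2 ≤ g (r + i) ^ 2 := by
      intro i hi
      have hi' := mem_range.mp hi
      have h3 := hW i (by omega)
      rw [← sq_abs (g (r + i))]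
      gcongr
    have := Finset.sum_le_sum h2
    simpa using this
  have hright : ∑ i ∈ range r, ((W : ℤ) - 2 * ((i : ℤ) + 1)) ^ 2
      ≤ ∑ i ∈ range r, g (r + (K + 1) + i) ^ 2 := by
    apply sum_le_sum
    intro i hi
    have hi' := mem_range.mp hi
    have h2 := hW K le_rfl
    have h3 := seq_lip g hg (r + K) (i + 1)
    have h4 : r + K + (i + 1) = r + (K + 1) + i := by ring
    rw [h4] at h3
    have h6 : |g (r + K)| ≤ |g (r + (K + 1) + i)| + |g (r + (K + 1) + i) - g (r + K)| := by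
      have := abs_add_le (g (r + (K + 1) + i)) (g (r + K) - g (r + (K + 1) + i))
      rw [abs_sub_comm (g (r + (K + 1) + i)) (g (r + K))]
      simpa using this
    have hirr : (i : ℤ) + 1 ≤ r := by exact_mod_cast hi'
    have h7 : (0 : ℤ) ≤ (W : ℤ) - 2 * ((i : ℤ) + 1) := by linarith
    have h8 : (W : ℤ) - 2 * ((i : ℤ) + 1) ≤ |g (r + (K + 1) + i)| := by
      push_cast at h3
      linarith
    calc ((W : ℤ) - 2 * ((i : ℤ) + 1)) ^ 2 ≤ |g (r + (K + 1) + i)| ^ 2 := by gcongr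
      _ = g (r + (K + 1) + i) ^ 2 := sq_abs _
  have hL := Vale.Agent.P033.sum_left (W : ℤ) r
  have hR := Vale.Agent.P033.sum_right (W : ℤ) r
  have htotal : 3 * (K : ℤ) * W ^ 2 + W * (W ^ 2 + 2)
      = 3 * ∑ i ∈ range r, ((W : ℤ) - 2 * ((r : ℤ) - i)) ^ 2
        + 3 * (((K : ℤ) + 1) * (W : ℤ) ^ 2)
        + 3 * ∑ i ∈ range r, ((W : ℤ) - 2 * ((i : ℤ) + 1)) ^ 2 := by
    rw [hL, hR]
    rcases hr with hr | hr <;> subst hr <;> push_cast <;> ring
  rw [htotal]
  linarith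

/-- Zero extension of the coefficient vector to `ℤ`. -/
def ext (N : ℕ) (ε : ℕ → ℤ) (t : ℤ) : ℤ := if 0 ≤ t ∧ t < N then ε t.toNat else 0

/-- The sum of the zero-extended coefficients over the progression `t, t - d, …, t - (m-1) d`. -/
def winSum (N : ℕ) (ε : ℕ → ℤ) (d m : ℕ) (t : ℤ) : ℤ :=
  ∑ j ∈ range m, ext N ε (t - j * d)

variable {N : ℕ} {ε : ℕ → ℤ} {d m : ℕ}

lemma ext_abs (hε : ∀ k < N, ε k = 1 ∨ ε k = -1) (t : ℤ) : |ext N ε t| ≤ 1 := by
  unfold ext
  split_ifs with h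
  · rcases hε t.toNat (by omega) with h0 | h0 <;> rw [h0] <;> norm_num
  · norm_num

lemma winSum_step (hε : ∀ k < N, ε k = 1 ∨ ε k = -1) (t : ℤ) :
    |winSum N ε d m (t + d) - winSum N ε d m t| ≤ 2 := by
  have h1 : winSum N ε d m t + ext N ε (t + d)
      = winSum N ε d m (t + d) + ext N ε (t + d - m * d) := by
    unfold winSum
    have h2 := Finset.sum_range_succ (fun j : ℕ => ext N ε (t + d - j * d)) m
    have h3 := Finset.sum_range_succ' (fun j : ℕ => ext N ε (t + d - j * d)) m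
    simp only [Nat.cast_zero, zero_mul, sub_zero] at h3
    have h4 : ∀ j ∈ range m, ext N ε (t + d - ((j + 1 : ℕ) : ℤ) * d) = ext N ε (t - j * d) := by
      intro j _
      congr 1
      push_cast
      ring
    rw [Finset.sum_congr rfl h4] at h3
    linarith
  have h5 : winSum N ε d m (t + d) - winSum N ε d m t
      = ext N ε (t + d) - ext N ε (t + d - m * d) := by linarith
  rw [h5]
  have h6 := ext_abs hε (t + d)
  have h7 := ext_abs hε (t + d - m * d)
  have h8 := abs_sub (ext N ε (t + d)) (ext N ε (t + d - m * d))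
  linarith

lemma winSum_eq_zero (hd : 1 ≤ d) {t : ℤ} (ht : t < 0 ∨ (N + m * d : ℤ) ≤ t) :
    winSum N ε d m t = 0 := by
  unfold winSum
  apply Finset.sum_eq_zero
  intro j hj
  have hj' := mem_range.mp hj
  unfold ext
  rw [if_neg]
  rintro ⟨h1, h2⟩
  rcases ht with ht | ht
  · have : (0 : ℤ) ≤ (j : ℤ) * d := by positivity
    linarith
  · have : (j : ℤ) * d ≤ m * d := by
      have : (j : ℤ) ≤ m := by exact_mod_cast hj'.le
      have hd0 : (0 : ℤ) ≤ d := by positivity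
      nlinarith
    linarith

/-- Product formula at a root of unity. -/
lemma coeff_product (ζ : ℂ) (s : ℕ) :
    ∑ u ∈ range (N + m * d), (winSum N ε d m (u : ℤ) : ℂ) * ζ ^ (s * u)
      = (∑ k ∈ range N, (ε k : ℂ) * (ζ ^ s) ^ k) *
        ∑ j ∈ range m, ((1 : ℝ) : ℂ) * ζ ^ (s * (j * d)) := by
  unfold winSum
  push_cast
  have key : ∀ j ∈ range m, ∑ u ∈ range (N + m * d), ((ext N ε ((u : ℤ) - j * d) : ℤ) : ℂ) * ζ ^ (s * u)
      = (∑ k ∈ range N, (ε k : ℂ) * (ζ ^ s) ^ k) * ((1 : ℂ) * ζ ^ (s * (j * d))) := by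
    intro j hj
    have hj' := mem_range.mp hj
    obtain ⟨rest, hrest⟩ : ∃ rest, N + m * d = j * d + (N + rest) := by
      have : j * d ≤ m * d := Nat.mul_le_mul_right d hj'.le
      exact ⟨m * d - j * d, by omega⟩
    rw [hrest, Finset.sum_range_add, Finset.sum_range_add]
    have h1 : ∑ x ∈ range (j * d), ((ext N ε ((x : ℤ) - j * d) : ℤ) : ℂ) * ζ ^ (s * x) = 0 := by
      apply Finset.sum_eq_zero
      intro x hx
      have hx' := mem_range.mp hx
      have : ext N ε ((x : ℤ) - j * d) = 0 := by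
        unfold ext
        rw [if_neg]
        rintro ⟨h2, _⟩
        have : (x : ℤ) < (j * d : ℕ) := by exact_mod_cast hx'
        push_cast at this
        linarith
      rw [this]
      simp
    have h2 : ∑ x ∈ range rest, ((ext N ε (((j * d + (N + x) : ℕ) : ℤ) - j * d) : ℤ) : ℂ)
        * ζ ^ (s * (j * d + (N + x))) = 0 := by
      apply Finset.sum_eq_zero
      intro x _
      have : ext N ε (((j * d + (N + x) : ℕ) : ℤ) - j * d) = 0 := by
        unfold ext
        rw [if_neg]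
        rintro ⟨_, h3⟩
        push_cast at h3
        have : (0 : ℤ) ≤ x := by positivity
        linarith
      rw [this]
      simp
    have h3 : ∑ x ∈ range N, ((ext N ε (((j * d + x : ℕ) : ℤ) - j * d) : ℤ) : ℂ)
        * ζ ^ (s * (j * d + x))
        = (∑ k ∈ range N, (ε k : ℂ) * (ζ ^ s) ^ k) * ((1 : ℂ) * ζ ^ (s * (j * d))) := by
      rw [Finset.sum_mul]
      apply sum_congr rfl
      intro x hx
      have hx' := mem_range.mp hx
      have h4 : ext N ε (((j * d + x : ℕ) : ℤ) - j * d) = ε x := by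
        have h5 : ((j * d + x : ℕ) : ℤ) - j * d = (x : ℤ) := by
          push_cast
          ring
        rw [h5]
        unfold ext
        rw [if_pos ⟨by positivity, by exact_mod_cast hx'⟩]
        simp
      rw [h4, mul_add, pow_add, pow_mul ζ s x]
      ring
    rw [h1, h2, h3, zero_add, add_zero]
  calc ∑ u ∈ range (N + m * d), (∑ j ∈ range m, ((ext N ε ((u : ℤ) - j * d) : ℤ) : ℂ)) * ζ ^ (s * u)
      = ∑ u ∈ range (N + m * d), ∑ j ∈ range m, ((ext N ε ((u : ℤ) - j * d) : ℤ) : ℂ) * ζ ^ (s * u) := by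
        apply sum_congr rfl
        intro u _
        rw [Finset.sum_mul]
    _ = ∑ j ∈ range m, ∑ u ∈ range (N + m * d), ((ext N ε ((u : ℤ) - j * d) : ℤ) : ℂ) * ζ ^ (s * u) :=
        Finset.sum_comm
    _ = ∑ j ∈ range m, (∑ k ∈ range N, (ε k : ℂ) * (ζ ^ s) ^ k) * ((1 : ℂ) * ζ ^ (s * (j * d))) :=
        sum_congr rfl key
    _ = _ := by
        rw [← Finset.mul_sum]

/-- The energy inequality. -/
theorem energy_range (hd : 1 ≤ d) (hm : 1 ≤ m) {A : ℝ}
    (hA : ∀ z : ℂ, ‖z‖ = 1 → ‖∑ k ∈ range N, (ε k : ℂ) * z ^ k‖ ^ 2 ≤ A) :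
    ∑ u ∈ range (N + m * d), ((winSum N ε d m (u : ℤ) : ℤ) : ℝ) ^ 2 ≤ A * m := by
  set M := N + m * d with hMdef
  have hM : 0 < M := by
    have : 0 < m * d := Nat.mul_pos hm hd
    omega
  have hζ := Complex.isPrimitiveRoot_exp M hM.ne'
  set ζ := Complex.exp (2 * Real.pi * Complex.I / M) with hζdef
  have hn : ‖ζ‖ = 1 := Complex.norm_eq_one_of_pow_eq_one hζ.pow_eq_one hM.ne'
  have h1 := parseval hM hζ (range M) (fun u => u) (fun i hi => mem_range.mp hi)
    (fun i _ j _ h => h) (fun u => ((winSum N ε d m (u : ℤ) : ℤ) : ℝ))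
  have h2 := parseval hM hζ (range m) (fun j => j * d)
    (fun j hj => by
      have hj' := mem_range.mp hj
      have : j * d < m * d := Nat.mul_lt_mul_of_pos_right hj' hd
      simp only [hMdef]
      omega)
    (fun i hi j hj h => by
      have hd0 : 0 < d := hd
      exact Nat.eq_of_mul_eq_mul_right hd0 h)
    (fun _ => (1 : ℝ))
  simp only [one_pow, sum_const, card_range, nsmul_eq_mul, mul_one] at h2
  have h3 : ∀ s ∈ range M,
      ‖∑ u ∈ range M, (((winSum N ε d m (u : ℤ) : ℤ) : ℝ) : ℂ) * ζ ^ (s * u)‖ ^ 2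
        ≤ A * ‖∑ j ∈ range m, ((1 : ℝ) : ℂ) * ζ ^ (s * (j * d))‖ ^ 2 := by
    intro s _
    have h4 := coeff_product (N := N) (ε := ε) (d := d) (m := m) ζ s
    have h5 : ∑ u ∈ range M, (((winSum N ε d m (u : ℤ) : ℤ) : ℝ) : ℂ) * ζ ^ (s * u)
        = (∑ k ∈ range N, (ε k : ℂ) * (ζ ^ s) ^ k) *
          ∑ j ∈ range m, ((1 : ℝ) : ℂ) * ζ ^ (s * (j * d)) := by
      rw [← h4]
      apply sum_congr rfl
      intro u _
      push_cast
      rfl
    rw [h5, norm_mul, mul_pow]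
    have h6 := hA (ζ ^ s) (by rw [norm_pow, hn, one_pow])
    exact mul_le_mul_of_nonneg_right h6 (sq_nonneg _)
  have h7 := Finset.sum_le_sum h3
  rw [← Finset.mul_sum] at h7
  rw [h1, h2] at h7
  have hMpos : (0 : ℝ) < M := by exact_mod_cast hM
  have h8 : (M : ℝ) * ∑ u ∈ range M, ((winSum N ε d m (u : ℤ) : ℤ) : ℝ) ^ 2 ≤ (M : ℝ) * (A * m) := by
    calc _ ≤ A * ((M : ℝ) * m) := h7
      _ = _ := by ring
  exact le_of_mul_le_mul_left h8 hMpos

/-- The energy inequality for any progression of shifts. -/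
theorem energy_prog (hd : 1 ≤ d) (hm : 1 ≤ m) {A : ℝ}
    (hA : ∀ z : ℂ, ‖z‖ = 1 → ‖∑ k ∈ range N, (ε k : ℂ) * z ^ k‖ ^ 2 ≤ A) (b : ℤ) (n' : ℕ) :
    ∑ i ∈ range n', ((winSum N ε d m (b + i * d) : ℤ) : ℝ) ^ 2 ≤ A * m := by
  classical
  refine le_trans ?_ (energy_range hd hm hA)
  set f : ℤ → ℝ := fun t => ((winSum N ε d m t : ℤ) : ℝ) ^ 2 with hf
  have hinj : Set.InjOn (fun i : ℕ => b + (i : ℤ) * d) (range n' : Set ℕ) := by
    intro i _ j _ h
    have hd0 : (d : ℤ) ≠ 0 := by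
      have : (1 : ℤ) ≤ d := by exact_mod_cast hd
      omega
    have h1 : (i : ℤ) * d = j * d := by simpa using h
    have h2 : (i : ℤ) = j := mul_right_cancel₀ hd0 h1
    exact_mod_cast h2
  have hc : Set.InjOn (fun u : ℕ => (u : ℤ)) (range (N + m * d) : Set ℕ) := by
    intro i _ j _ h
    exact_mod_cast (show (i : ℤ) = j from h)
  set T := (range (N + m * d)).image (fun u : ℕ => (u : ℤ)) with hT
  have h1 : ∑ u ∈ range (N + m * d), ((winSum N ε d m (u : ℤ) : ℤ) : ℝ) ^ 2 = ∑ t ∈ T, f t := by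
    rw [hT, Finset.sum_image hc]
  rw [h1]
  have h2 : ∑ i ∈ range n', ((winSum N ε d m (b + i * d) : ℤ) : ℝ) ^ 2
      = ∑ t ∈ (range n').image (fun i : ℕ => b + (i : ℤ) * d), f t := by
    rw [Finset.sum_image hinj]
  rw [h2]
  rw [← Finset.sum_filter_of_ne (p := fun t => t ∈ T)]
  · apply Finset.sum_le_sum_of_subset_of_nonneg
    · intro t ht
      exact (mem_filter.mp ht).2
    · intro t _ _
      exact sq_nonneg _
  · intro t _ hft
    by_contra htT
    apply hft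
    have h3 : winSum N ε d m t = 0 := by
      apply winSum_eq_zero hd
      by_contra h4
      push Not at h4
      apply htT
      rw [hT, mem_image]
      refine ⟨t.toNat, mem_range.mpr ?_, ?_⟩
      · have h5 : t < (N + m * d : ℕ) := by
          push_cast
          exact h4.2
        omega
      · simp [h4.1]
    simp [hf, h3]

lemma ext_of_lt {x : ℕ} (hx : x < N) : ext N ε (x : ℤ) = ε x := by
  unfold ext
  rw [if_pos ⟨by positivity, by exact_mod_cast hx⟩]
  simp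

lemma half_width (W : ℕ) (hW : 1 ≤ W) : ∃ r : ℕ, W = 2 * r + 1 ∨ W = 2 * r + 2 :=
  ⟨(W - 1) / 2, by omega⟩

/-- The energy bound for a plateau of window sums. -/
theorem plateau_real (hε : ∀ k < N, ε k = 1 ∨ ε k = -1) (hd : 1 ≤ d) (hm : 1 ≤ m) {A : ℝ}
    (hA : ∀ z : ℂ, ‖z‖ = 1 → ‖∑ k ∈ range N, (ε k : ℂ) * z ^ k‖ ^ 2 ≤ A)
    (t₀ : ℤ) (K W : ℕ) (hW1 : 1 ≤ W)
    (hW : ∀ i ≤ K, (W : ℤ) ≤ |winSum N ε d m (t₀ + i * d)|) :
    3 * (K : ℝ) * W ^ 2 + W * (W ^ 2 + 2) ≤ 3 * (A * m) := by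
  obtain ⟨r, hr⟩ := half_width W hW1
  set g : ℕ → ℤ := fun i => winSum N ε d m (t₀ - r * d + i * d) with hg
  have hstep : ∀ i, |g (i + 1) - g i| ≤ 2 := by
    intro i
    have h1 := winSum_step (N := N) (ε := ε) (d := d) (m := m) hε (t₀ - r * d + i * d)
    have h2 : t₀ - r * d + i * d + d = t₀ - r * d + ((i + 1 : ℕ) : ℤ) * d := by
      push_cast
      ring
    rw [h2] at h1
    exact h1
  have hplat : ∀ i ≤ K, (W : ℤ) ≤ |g (r + i)| := by
    intro i hi
    have h1 := hW i hi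
    have h2 : g (r + i) = winSum N ε d m (t₀ + i * d) := by
      simp only [hg]
      congr 1
      push_cast
      ring
    rw [h2]
    exact h1
  have h1 := seq_plateau g hstep K W r hr hplat
  have h2 := energy_prog hd hm hA (t₀ - r * d) (r + (K + 1) + r)
  have h3 : (((3 * (K : ℤ) * W ^ 2 + W * (W ^ 2 + 2) : ℤ)) : ℝ)
      ≤ ((3 * ∑ i ∈ range (r + (K + 1) + r), g i ^ 2 : ℤ) : ℝ) := by
    exact_mod_cast h1
  push_cast at h3
  linarith

/-- The window inequality for monochromatic progressions. -/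
theorem mono_window (hε : ∀ k < N, ε k = 1 ∨ ε k = -1) {A : ℝ}
    (hA : ∀ z : ℂ, ‖z‖ = 1 → ‖∑ k ∈ range N, (ε k : ℂ) * z ^ k‖ ^ 2 ≤ A)
    (a L : ℕ) (hd : 1 ≤ d) (hc : ∀ j < L, a + j * d < N ∧ ε (a + j * d) = ε a)
    (hm1 : 1 ≤ m) (hmL : m ≤ L) :
    3 * (m : ℝ) * ((L : ℝ) - m) + (m : ℝ) ^ 2 + 2 ≤ 3 * A := by
  have ha : a < N := by simpa using (hc 0 (by omega)).1
  have h1 := plateau_real hε hd hm1 hA ((a : ℤ) + ((m - 1 : ℕ) : ℤ) * d) (L - m) m hm1 (by
    intro i hi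
    have h2 : winSum N ε d m ((a : ℤ) + ((m - 1 : ℕ) : ℤ) * d + i * d) = (m : ℤ) * ε a := by
      unfold winSum
      have h3 : ∀ j ∈ range m,
          ext N ε ((a : ℤ) + ((m - 1 : ℕ) : ℤ) * d + i * d - j * d) = ε a := by
        intro j hj
        have hj' := mem_range.mp hj
        have hp : (m - 1 - j + i) < L := by omega
        have h4 : (a : ℤ) + ((m - 1 : ℕ) : ℤ) * d + i * d - j * d
            = ((a + (m - 1 - j + i) * d : ℕ) : ℤ) := by
          have h5 : ((m - 1 - j + i : ℕ) : ℤ) = ((m - 1 : ℕ) : ℤ) - j + i := by omega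
          push_cast
          rw [Nat.cast_sub (by omega : j ≤ m - 1)]
          ring
        rw [h4, ext_of_lt (hc _ hp).1]
        exact (hc _ hp).2
      rw [Finset.sum_congr rfl h3]
      simp
    rw [h2, abs_mul]
    have h6 : |ε a| = 1 := by
      rcases hε a ha with h0 | h0 <;> rw [h0] <;> norm_num
    rw [h6]
    simp)
  have hL : ((L - m : ℕ) : ℝ) = (L : ℝ) - m := by
    rw [Nat.cast_sub hmL]
  rw [hL] at h1
  have hmpos : (0 : ℝ) < m := by exact_mod_cast hm1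
  have h2 : (m : ℝ) * (3 * (m : ℝ) * ((L : ℝ) - m) + (m : ℝ) ^ 2 + 2) ≤ (m : ℝ) * (3 * A) := by
    nlinarith [h1]
  exact le_of_mul_le_mul_left h2 hmpos

/-- The length bound for monochromatic progressions. -/
theorem mono_length (hε : ∀ k < N, ε k = 1 ∨ ε k = -1) {A : ℝ}
    (hA : ∀ z : ℂ, ‖z‖ = 1 → ‖∑ k ∈ range N, (ε k : ℂ) * z ^ k‖ ^ 2 ≤ A)
    (a L : ℕ) (hd : 1 ≤ d) (hL1 : 1 ≤ L) (hc : ∀ j < L, a + j * d < N ∧ ε (a + j * d) = ε a) :
    3 * (L : ℝ) ^ 2 + 4 ≤ 8 * A := by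
  obtain ⟨q, hq⟩ : ∃ q : ℕ, L = 4 * q ∨ L = 4 * q + 1 ∨ L = 4 * q + 2 ∨ L = 4 * q + 3 :=
    ⟨L / 4, by omega⟩
  rcases hq with hq | hq | hq | hq
  · have h1 := mono_window (m := 3 * q) hε hA a L hd hc (by omega) (by omega)
    subst hq
    push_cast at h1 ⊢
    nlinarith [h1]
  · have h1 := mono_window (m := 3 * q + 1) hε hA a L hd hc (by omega) (by omega)
    subst hq
    push_cast at h1 ⊢
    nlinarith [h1]
  · have h1 := mono_window (m := 3 * q + 2) hε hA a L hd hc (by omega) (by omega)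
    subst hq
    push_cast at h1 ⊢
    nlinarith [h1]
  · have h1 := mono_window (m := 3 * q + 2) hε hA a L hd hc (by omega) (by omega)
    subst hq
    push_cast at h1 ⊢
    nlinarith [h1]

/-- The bound on sums along progressions. -/
theorem prog_sum (hε : ∀ k < N, ε k = 1 ∨ ε k = -1) {A : ℝ}
    (hA : ∀ z : ℂ, ‖z‖ = 1 → ‖∑ k ∈ range N, (ε k : ℂ) * z ^ k‖ ^ 2 ≤ A)
    (a : ℕ) (hd : 1 ≤ d) (hc : ∀ j < m, a + j * d < N) :
    |(∑ j ∈ range m, (ε (a + j * d) : ℝ))| * (|(∑ j ∈ range m, (ε (a + j * d) : ℝ))| ^ 2 + 2)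
      ≤ 3 * (A * m) := by
  have hA0 : 0 ≤ A := le_trans (sq_nonneg _) (hA 1 (by simp))
  rcases Nat.eq_zero_or_pos m with rfl | hm
  · simp
  set S : ℤ := ∑ j ∈ range m, ε (a + j * d) with hS
  have hSc : (∑ j ∈ range m, (ε (a + j * d) : ℝ)) = (S : ℝ) := by
    rw [hS]
    push_cast
    rfl
  rw [hSc]
  have hnat : ((S.natAbs : ℕ) : ℤ) = |S| := Int.natCast_natAbs S
  have hnatR : ((S.natAbs : ℕ) : ℝ) = |(S : ℝ)| := by
    have : ((S.natAbs : ℕ) : ℝ) = ((|S| : ℤ) : ℝ) := by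
      rw [← hnat]
      rfl
    rw [this, Int.cast_abs]
  rcases Nat.eq_zero_or_pos S.natAbs with h0 | hW1
  · have hS0 : S = 0 := Int.natAbs_eq_zero.mp h0
    rw [hS0]
    simp
    positivity
  · have h1 := plateau_real hε hd hm hA ((a : ℤ) + ((m - 1 : ℕ) : ℤ) * d) 0 S.natAbs hW1 (by
      intro i hi
      obtain rfl : i = 0 := by omega
      have h2 : winSum N ε d m ((a : ℤ) + ((m - 1 : ℕ) : ℤ) * d + ((0 : ℕ) : ℤ) * d) = S := by
        unfold winSum
        rw [hS, ← Finset.sum_range_reflect (fun j => ε (a + j * d))]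
        apply sum_congr rfl
        intro j hj
        have hj' := mem_range.mp hj
        have hp : (m - 1 - j) < m := by omega
        have h4 : (a : ℤ) + ((m - 1 : ℕ) : ℤ) * d + ((0 : ℕ) : ℤ) * d - j * d
            = ((a + (m - 1 - j) * d : ℕ) : ℤ) := by
          push_cast
          rw [Nat.cast_sub (by omega : j ≤ m - 1)]
          ring
        rw [h4, ext_of_lt (hc _ hp)]
      rw [h2, hnat])
    rw [hnatR] at h1
    simpa using h1

end Vale.Agent.P110
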